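import Vale.Agent.P159.H950.K4

open Filter Topology Vale.Agent.P159 Vale.Agent.P159.H454 Vale.Agent.P159.H950

namespace Vale.Agent.Results.P159.ChargesOfAllOrders

/-- Correlations of integer charges of the square-lattice XY model: a parallelogram inequality,
and its consequence that in the massless phase `[bCrit, ∞)` all neutral correlations decay at most
like a power, while below `bCrit` each charge decays faster than all powers. -/
theorem result :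
    -- the infinite volume limit, and the case of the two-point function
    (∀ b : ℝ, 0 ≤ b → ∀ (k : ℕ) (m : Fin k → ℤ) (x : Fin k → ℤ × ℤ),
      Tendsto (fun R : ℕ => chargeCorr R b m x) atTop (𝓝 (chargeInf b m x)) ∧
        0 ≤ chargeInf b m x ∧ chargeInf b m x ≤ 1) ∧
    (∀ (b : ℝ) (x : ℤ × ℤ), chargeInf b ![1, -1] ![0, x] = corrInf b x) ∧
    -- the parallelogram inequality, in boxes and in infinite volume
    (∀ b : ℝ, 0 ≤ b → ∀ (k : ℕ) (m m' : Fin k → ℤ) (x : Fin k → ℤ × ℤ),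
      (∀ R : ℕ, (∀ j, x j ∈ box R) → chargeCorr R b m x ^ 2 * chargeCorr R b m' x ^ 2 ≤
        chargeCorr R b (m + m') x * chargeCorr R b (m - m') x) ∧
      chargeInf b m x ^ 2 * chargeInf b m' x ^ 2 ≤
        chargeInf b (m + m') x * chargeInf b (m - m') x) ∧
    -- multiples of a charge configuration
    (∀ b : ℝ, 0 ≤ b → ∀ (k : ℕ) (m : Fin k → ℤ) (x : Fin k → ℤ × ℤ) (q : ℕ),
      chargeInf b m x ^ (q ^ 2) ≤ chargeInf b (fun j => (q : ℤ) * m j) x) ∧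
    -- below the critical point each charge decays faster than all powers
    (∀ b : ℝ, 0 < b → b < bCrit → ∀ q : ℕ, 1 ≤ q → ∀ η : ℝ, ∃ K : ℝ, ∀ x : ℤ × ℤ, x ≠ 0 →
      chargeInf b ![(q : ℤ), -(q : ℤ)] ![0, x] ≤ K * ((max |x.1| |x.2| : ℤ) : ℝ) ^ (-η)) ∧
    -- at and above the critical point each charge has power law bounds on both sides
    (∀ b : ℝ, bCrit ≤ b → ∀ q : ℕ, 1 ≤ q →
      (∀ n : ℕ, 1 ≤ n →
        (1 / (48 * b * n)) ^ (q ^ 2) ≤ chargeInf b ![(q : ℤ), -(q : ℤ)] ![0, ((n : ℤ), 0)]) ∧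
      ∀ η : ℝ, η < (q : ℝ) ^ 2 / (2 * Real.pi * helicity b) → ∃ K : ℝ, ∀ x : ℤ × ℤ, x ≠ 0 →
        chargeInf b ![(q : ℤ), -(q : ℤ)] ![0, x] ≤ K * ((max |x.1| |x.2| : ℤ) : ℝ) ^ (-η)) ∧
    (∀ b : ℝ, bCrit < b → 0 < (1 / bCrit - 1 / b) / 8 ∧ ∃ c : ℝ, 0 < c ∧ ∀ q n : ℕ, 1 ≤ n →
      (c * (n : ℝ) ^ (-1 + (1 / bCrit - 1 / b) / 8)) ^ (q ^ 2) ≤
        chargeInf b ![(q : ℤ), -(q : ℤ)] ![0, ((n : ℤ), 0)]) ∧
    -- at and above the critical point no neutral correlation decays faster than a power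
    (∀ b : ℝ, bCrit ≤ b → ∀ (k : ℕ) (m : Fin k → ℤ), ∑ j, m j = 0 →
      ∃ N : ℕ, ∀ (x : Fin k → ℤ × ℤ) (d : ℕ),
        (∀ i j, max |(x i - x j).1| |(x i - x j).2| ≤ (d : ℤ)) →
        (1 / (48 * b * (d + 1))) ^ N ≤ chargeInf b m x) :=
  charges

end Vale.Agent.Results.P159.ChargesOfAllOrders
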